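import Vale.Agent.N192T.Main

/-!
# P192: infinite finitely presented periodic groups with property (T), not amenable
-/

namespace Vale.Agent.Results.P192.A0Kazhdan

open Vale.Agent.N192T

universe u

/-- (1) For each prime `p` there is an infinite finitely presented `p`-group with property (T), not
amenable. (2) For each prime `p` there is an infinite finitely presented perfect periodic group with property (T), not
amenable, with a `p`-subgroup of finite index. -/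
theorem result :
    (∀ p : ℕ, p.Prime → ∃ (G : Type) (_ : Group G), FinPres G ∧ Infinite G ∧
      (∀ g : G, ∃ k : ℕ, g ^ p ^ k = 1) ∧ Kazhdan.{u} G ∧ ¬ Amenable G) ∧
    ∀ p : ℕ, p.Prime → ∃ (G : Type) (_ : Group G), FinPres G ∧ Infinite G ∧
      (∀ g : G, IsOfFinOrder g) ∧ commutator G = ⊤ ∧ Kazhdan.{u} G ∧ ¬ Amenable G ∧
      ∃ Λ : Subgroup G, Λ.FiniteIndex ∧ ∀ g ∈ Λ, ∃ k : ℕ, g ^ p ^ k = 1 := by
  have k3 : ∀ p : ℕ, p.Prime → ∃ (G : Type) (_ : Group G), FinPres G ∧ Infinite G ∧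
      (∀ g : G, IsOfFinOrder g) ∧ commutator G = ⊤ ∧ Kazhdan.{u} G ∧ ¬ Amenable G ∧
      ∃ Λ : Subgroup G, Λ.FiniteIndex ∧ ∀ g ∈ Λ, ∃ k : ℕ, g ^ p ^ k = 1 := by
    intro p hp
    have : Fact p.Prime := ⟨hp⟩
    obtain ⟨G, _, Λ, _, h1, h2, h3, h4, h5, h6⟩ := main.{u} p
    have h7 : ∀ g ∈ Λ, ∃ k : ℕ, g ^ p ^ k = 1 := fun g hg =>
      (h3 ⟨g, hg⟩).imp fun k hk => congrArg Subtype.val hk
    have : Infinite G := Infinite.of_injective _ Λ.subtype_injective
    refine ⟨G, inferInstance, finPres_of h1, this, fun g => ?_, h4, h5.kazhdan, h6.not_amenable,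
      Λ, inferInstance, h7⟩
    obtain ⟨n, hn, -, hg⟩ := Λ.exists_pow_mem_of_index_ne_zero Subgroup.FiniteIndex.index_ne_zero g
    obtain ⟨k, hk⟩ := h7 _ hg
    exact isOfFinOrder_iff_pow_eq_one.2
      ⟨n * p ^ k, mul_pos hn (pow_pos hp.pos k), by rw [pow_mul, hk]⟩
  refine ⟨fun p hp => ?_, k3⟩
  have : Fact p.Prime := ⟨hp⟩
  obtain ⟨G, _, Λ, _, h1, h2, h3, -, h5, h6⟩ := main.{u} p
  exact ⟨Λ, inferInstance, finPres_of (Vale.Agent.P192.fp_of_finiteIndex G Λ), h2, h3,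
    (h5.finiteIndex Λ).kazhdan, (h6.finiteIndex Λ).not_amenable⟩

end Vale.Agent.Results.P192.A0Kazhdan
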