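import Vale.Agent.N192.Main

/-!
# P192: finitely presented `p`-groups with finite quotients of unbounded order, for every prime `p`
-/

theorem Vale.Agent.Results.P192.A0PGroups.result :
    ∀ p : ℕ, p.Prime → ∃ (G : Type) (_ : Group G), Group.IsFinitelyPresented G ∧ Infinite G ∧
      (∀ g : G, ∃ k : ℕ, g ^ p ^ k = 1) ∧
      ∀ n : ℕ, ∃ N : Subgroup G, N.Normal ∧ N.FiniteIndex ∧ n ≤ N.index := by
  intro p hp
  have : Fact p.Prime := ⟨hp⟩
  obtain ⟨G, _, h1, h2, h3⟩ := Vale.Agent.N192.group_main p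
  refine ⟨G, inferInstance, h1, ?_, h2, h3⟩
  rw [← not_finite_iff_infinite]
  intro hf
  obtain ⟨N, -, -, hN⟩ := h3 (Nat.card G + 1)
  have := Nat.le_of_dvd Nat.card_pos N.index_dvd_card
  omega
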